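import Vale.Agent.P124.MathlibUsed
import Vale.Agent.P124.Defs

set_option linter.all false

section

set_option linter.unusedSectionVars false
set_option linter.unusedVariables false

namespace Vale.Agent.P124

open Real

section basic
variable {V : Type*} [NormedAddCommGroup V] [NormedSpace ℝ V]

lemma abs_sub_le_of_unit {u v : V} (hu : ‖u‖ = 1) (hv : ‖v‖ = 1) {a b : ℝ} (ha : 0 ≤ a)
    (hb : 0 ≤ b) : |a - b| ≤ ‖a • u - b • v‖ := by
  have h := abs_norm_sub_norm_le (a • u) (b • v)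
  rwa [norm_smul, norm_smul, hu, hv, mul_one, mul_one, Real.norm_of_nonneg ha,
    Real.norm_of_nonneg hb] at h

lemma left_mul_le {u v : V} (hu : ‖u‖ = 1) (hv : ‖v‖ = 1) {a b : ℝ} (ha : 0 ≤ a)
    (hb : 0 ≤ b) : a * ‖u - v‖ ≤ 2 * ‖a • u - b • v‖ := by
  have h1 : a • (u - v) = (a • u - b • v) + (b - a) • v := by
    rw [smul_sub, sub_smul]; abel
  have h2 : a * ‖u - v‖ = ‖a • (u - v)‖ := by
    rw [norm_smul, Real.norm_of_nonneg ha]
  have h3 : ‖(b - a) • v‖ = |a - b| := by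
    rw [norm_smul, hv, mul_one, Real.norm_eq_abs, abs_sub_comm]
  have h4 := norm_add_le (a • u - b • v) ((b - a) • v)
  have h5 := abs_sub_le_of_unit hu hv ha hb
  rw [h2, h1]
  linarith only [h3, h4, h5]

lemma right_mul_le {u v : V} (hu : ‖u‖ = 1) (hv : ‖v‖ = 1) {a b : ℝ} (ha : 0 ≤ a)
    (hb : 0 ≤ b) : b * ‖u - v‖ ≤ 2 * ‖a • u - b • v‖ := by
  have := left_mul_le hv hu hb ha
  rwa [norm_sub_rev, norm_sub_rev (b • v)] at this

lemma le_min_mul {u v : V} (hu : ‖u‖ = 1) (hv : ‖v‖ = 1) {a b : ℝ} (ha : 0 ≤ a)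
    (hb : 0 ≤ b) : ‖a • u - b • v‖ ≤ |a - b| + min a b * ‖u - v‖ := by
  rcases le_total a b with h | h
  · rw [min_eq_left h]
    have h1 : a • u - b • v = a • (u - v) + (a - b) • v := by
      rw [smul_sub, sub_smul]; abel
    rw [h1]
    refine (norm_add_le _ _).trans ?_
    rw [norm_smul, norm_smul, hv, mul_one, Real.norm_of_nonneg ha, Real.norm_eq_abs]
    linarith only []
  · rw [min_eq_right h]
    have h1 : a • u - b • v = b • (u - v) + (a - b) • u := by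
      rw [smul_sub, sub_smul]; abel
    rw [h1]
    refine (norm_add_le _ _).trans ?_
    rw [norm_smul, norm_smul, hu, mul_one, Real.norm_of_nonneg hb, Real.norm_eq_abs]
    linarith only []

lemma cross_le {u v : V} (hu : ‖u‖ = 1) (hv : ‖v‖ = 1) {a b c d : ℝ} (ha : 0 ≤ a)
    (hb : 0 ≤ b) (hc : 0 ≤ c) (hd : 0 ≤ d) (h : a * b = c * d) :
    ‖a • u - b • v‖ ≤ |a - b| + 2 * ‖c • u - d • v‖ := by
  have h1 := le_min_mul hu hv ha hb
  have h2 := left_mul_le hu hv hc hd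
  have h3 := right_mul_le hu hv hc hd
  have h4 : min a b ≤ max c d := by
    by_contra hcon
    push Not at hcon
    have h5 : max c d < a := lt_of_lt_of_le hcon (min_le_left _ _)
    have h6 : max c d < b := lt_of_lt_of_le hcon (min_le_right _ _)
    have h7 : c < a := lt_of_le_of_lt (le_max_left _ _) h5
    have h8 : d < b := lt_of_le_of_lt (le_max_right _ _) h6
    nlinarith only [h, hc, h8, hd, h7]
  have h9 : min a b * ‖u - v‖ ≤ max c d * ‖u - v‖ :=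
    mul_le_mul_of_nonneg_right h4 (norm_nonneg _)
  have h10 : max c d * ‖u - v‖ ≤ 2 * ‖c • u - d • v‖ := by
    rcases le_total c d with h | h
    · rw [max_eq_right h]; exact h3
    · rw [max_eq_left h]; exact h2
  linarith only [h1, h9, h10]

lemma homog_le {W : Type*} [NormedAddCommGroup W] [NormedSpace ℝ W] {u v : V} {p q : W}
    (hu : ‖u‖ = 1) (hv : ‖v‖ = 1) (hp : ‖p‖ = 1) (hq : ‖q‖ = 1) {L : ℝ} (hL : 0 ≤ L)
    (h : ‖p - q‖ ≤ L * ‖u - v‖) {r s : ℝ} (hr : 0 ≤ r) (hs : 0 ≤ s) :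
    ‖r • p - s • q‖ ≤ (1 + 2 * L) * ‖r • u - s • v‖ := by
  have h1 := le_min_mul hp hq hr hs
  have h2 := left_mul_le hu hv hr hs
  have h3 := abs_sub_le_of_unit hu hv hr hs
  have h4 : min r s * ‖p - q‖ ≤ r * (L * ‖u - v‖) :=
    mul_le_mul (min_le_left _ _) h (norm_nonneg _) hr
  have h5 : r * (L * ‖u - v‖) = L * (r * ‖u - v‖) := by ring
  have h6 := mul_le_mul_of_nonneg_left h2 hL
  linarith only [h1, h3, h4, h6]

end basic

variable {X Y : Type*} [NormedAddCommGroup X] [NormedSpace ℝ X]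
  [NormedAddCommGroup Y] [NormedSpace ℝ Y]

/-- The direct sum of `X` and the line, with the Euclidean combination of the norms. -/
abbrev SumR (X : Type*) : Type _ := WithLp 2 (X × ℝ)

lemma norm_sq_sumR (w : SumR X) : ‖w‖ ^ 2 = ‖w.fst‖ ^ 2 + w.snd ^ 2 := by
  rw [WithLp.prod_norm_sq_eq_of_L2, Real.norm_eq_abs, sq_abs]

/-- stereographic projection -/
noncomputable def sig (x : X) : SumR X :=
  WithLp.toLp 2 ((2 * (1 + ‖x‖ ^ 2)⁻¹) • x, (1 + ‖x‖ ^ 2)⁻¹ * (‖x‖ ^ 2 - 1))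

noncomputable def pole (X : Type*) [NormedAddCommGroup X] : SumR X := WithLp.toLp 2 (0, 1)

lemma sig_fst (x : X) : (sig x).fst = (2 * (1 + ‖x‖ ^ 2)⁻¹) • x := rfl
lemma sig_snd (x : X) : (sig x).snd = (1 + ‖x‖ ^ 2)⁻¹ * (‖x‖ ^ 2 - 1) := rfl
lemma pole_fst : (pole X).fst = 0 := rfl
lemma pole_snd : (pole X).snd = 1 := rfl

lemma norm_sig (x : X) : ‖sig x‖ = 1 := by
  have h : ‖sig x‖ ^ 2 = 1 := by
    rw [norm_sq_sumR, sig_fst, sig_snd, norm_smul, Real.norm_of_nonneg (by positivity)]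
    have : (1 + ‖x‖ ^ 2) ≠ 0 := by positivity
    field_simp
    ring
  have h0 := norm_nonneg (sig x)
  nlinarith only [h, h0]

lemma norm_pole : ‖pole X‖ = 1 := by
  have h : ‖pole X‖ ^ 2 = 1 := by
    rw [norm_sq_sumR, pole_fst, pole_snd]; simp
  have h0 := norm_nonneg (pole X)
  nlinarith only [h, h0]

/-- conformal factor -/
noncomputable def cf (x : X) : ℝ := (√(1 + ‖x‖ ^ 2))⁻¹

lemma cf_pos (x : X) : 0 < cf x := by unfold cf; positivity

lemma cf_sq (x : X) : cf x ^ 2 = (1 + ‖x‖ ^ 2)⁻¹ := by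
  unfold cf
  rw [inv_pow, Real.sq_sqrt (by positivity)]

lemma cf_id (x : X) : cf x ^ 2 + (cf x * ‖x‖) ^ 2 = 1 := by
  rw [mul_pow, cf_sq]
  have : (1 + ‖x‖ ^ 2) ≠ 0 := by positivity
  field_simp

lemma exists_polar (x y : X) (h : ¬ (x = 0 ∧ y = 0)) :
    ∃ u v : X, ‖u‖ = 1 ∧ ‖v‖ = 1 ∧ x = ‖x‖ • u ∧ y = ‖y‖ • v := by
  have key : ∀ z : X, z ≠ 0 → ‖(‖z‖⁻¹ • z)‖ = 1 ∧ z = ‖z‖ • (‖z‖⁻¹ • z) := by
    intro z hz
    have hz' : ‖z‖ ≠ 0 := norm_ne_zero_iff.mpr hz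
    refine ⟨?_, ?_⟩
    · rw [norm_smul, norm_inv, norm_norm, inv_mul_cancel₀ hz']
    · rw [smul_smul, mul_inv_cancel₀ hz', one_smul]
  by_cases hx : x = 0
  · have hy : y ≠ 0 := fun hy => h ⟨hx, hy⟩
    refine ⟨‖y‖⁻¹ • y, ‖y‖⁻¹ • y, (key y hy).1, (key y hy).1, ?_, (key y hy).2⟩
    simp only [hx, norm_zero, zero_smul]
  · by_cases hy : y = 0
    · refine ⟨‖x‖⁻¹ • x, ‖x‖⁻¹ • x, (key x hx).1, (key x hx).1, (key x hx).2, ?_⟩
      simp only [hy, norm_zero, zero_smul]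
    · exact ⟨_, _, (key x hx).1, (key y hy).1, (key x hx).2, (key y hy).2⟩

lemma trig_norm_sq (x y : X) :
    ‖sig x - sig y‖ ^ 2 = 4 * ‖(cf x ^ 2) • x - (cf y ^ 2) • y‖ ^ 2
      + 4 * (cf x ^ 2 - cf y ^ 2) ^ 2 := by
  rw [norm_sq_sumR]
  have h1 : (sig x - sig y).fst = (2:ℝ) • ((cf x ^ 2) • x - (cf y ^ 2) • y) := by
    rw [WithLp.sub_fst, sig_fst, sig_fst, cf_sq, cf_sq, smul_sub, smul_smul, smul_smul]
  have h2 : (sig x - sig y).snd = - 2 * (cf x ^ 2 - cf y ^ 2) := by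
    rw [WithLp.sub_snd, sig_snd, sig_snd, cf_sq, cf_sq]
    have h3 : (1 + ‖x‖ ^ 2) ≠ 0 := by positivity
    have h4 : (1 + ‖y‖ ^ 2) ≠ 0 := by positivity
    field_simp
    ring
  rw [h1, h2, norm_smul, Real.norm_of_nonneg (by norm_num : (0:ℝ) ≤ 2)]
  ring

lemma num_upper {A B D Q N E : ℝ} (hA : 0 ≤ A) (hB : 0 ≤ B) (hD : 0 ≤ D) (hQ : 0 ≤ Q)
    (hN : 0 ≤ N) (h : N ^ 2 = 4 * D ^ 2 + 4 * E ^ 2) (h2 : B ≤ Q) (h3 : D ≤ A + 2 * Q)
    (h4 : A ^ 2 + E ^ 2 = B ^ 2) : N ≤ 6 * Q := by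
  have h5 : A ^ 2 ≤ B ^ 2 := by nlinarith only [h4]
  have h6 : A ≤ B := (pow_le_pow_iff_left₀ hA hB (by norm_num)).mp h5
  have h7 : A ≤ Q := h6.trans h2
  have h8 : D ^ 2 ≤ (A + 2 * Q) ^ 2 := pow_le_pow_left₀ hD h3 2
  have h9 : B ^ 2 ≤ Q ^ 2 := pow_le_pow_left₀ hB h2 2
  have h10 : A * Q ≤ Q * Q := mul_le_mul_of_nonneg_right h7 hQ
  have h11 : N ^ 2 ≤ (6 * Q) ^ 2 := by linarith
  exact (pow_le_pow_iff_left₀ hN (by positivity) (by norm_num)).mp h11

lemma num_lower {A B D Q N E : ℝ} (hA : 0 ≤ A) (hB : 0 ≤ B) (hD : 0 ≤ D) (hQ : 0 ≤ Q)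
    (hN : 0 ≤ N) (h : N ^ 2 = 4 * D ^ 2 + 4 * E ^ 2) (h1 : A ≤ D) (h3 : Q ≤ B + 2 * D)
    (h4 : A ^ 2 + E ^ 2 = B ^ 2) : Q ≤ 3 / 2 * N := by
  have h5 : A ^ 2 ≤ D ^ 2 := pow_le_pow_left₀ hA h1 2
  have h6 : B ^ 2 ≤ (N / 2) ^ 2 := by
    rw [div_pow, h]; linarith only [h4, h5]
  have h7 : D ^ 2 ≤ (N / 2) ^ 2 := by
    rw [div_pow, h]; linarith [sq_nonneg E]
  have h8 : B ≤ N / 2 := (pow_le_pow_iff_left₀ hB (by positivity) (by norm_num)).mp h6
  have h9 : D ≤ N / 2 := (pow_le_pow_iff_left₀ hD (by positivity) (by norm_num)).mp h7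
  linarith only [h3, h8, h9]

lemma chord_aux (x y : X) (h : ¬ (x = 0 ∧ y = 0)) :
    ‖sig x - sig y‖ ≤ 6 * (cf x * cf y * ‖x - y‖) ∧
      cf x * cf y * ‖x - y‖ ≤ 3 / 2 * ‖sig x - sig y‖ := by
  obtain ⟨u, v, hu, hv, hxu, hyv⟩ := exists_polar x y h
  set a := ‖x‖ with ha
  set b := ‖y‖ with hb
  set c := cf x with hc
  set d := cf y with hd
  have ha0 : 0 ≤ a := norm_nonneg _
  have hb0 : 0 ≤ b := norm_nonneg _
  have hc0 : 0 < c := cf_pos x
  have hd0 : 0 < d := cf_pos y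
  have hN := trig_norm_sq x y
  rw [← hc, ← hd] at hN
  have hid1 : c ^ 2 + (c * a) ^ 2 = 1 := cf_id x
  have hid2 : d ^ 2 + (d * b) ^ 2 = 1 := cf_id y
  set S := c * a with hS
  set T := d * b with hT
  have hS0 : 0 ≤ S := by (clear * - hc0; positivity)
  have hT0 : 0 ≤ T := by (clear * - hd0; positivity)
  have e1 : (c ^ 2) • x - (d ^ 2) • y = (c * S) • u - (d * T) • v := by
    conv_lhs => rw [hxu, hyv]
    rw [smul_smul, smul_smul, hS, hT]
    congr 2 <;> ring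
  have e2 : (c * d) • (x - y) = (d * S) • u - (c * T) • v := by
    conv_lhs => rw [hxu, hyv]
    rw [smul_sub, smul_smul, smul_smul, hS, hT]
    congr 2 <;> ring
  have e3 : c * d * ‖x - y‖ = ‖(d * S) • u - (c * T) • v‖ := by
    rw [← e2, norm_smul, Real.norm_of_nonneg (by (clear * - hc0 hd0; positivity))]
  rw [e3]
  rw [e1] at hN
  set D := ‖(c * S) • u - (d * T) • v‖ with hD
  set Q := ‖(d * S) • u - (c * T) • v‖ with hQ
  have hD0 : 0 ≤ D := norm_nonneg _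
  have hQ0 : 0 ≤ Q := norm_nonneg _
  have n0 : 0 ≤ ‖sig x - sig y‖ := norm_nonneg _
  have k1 : |c * S - d * T| ≤ D := abs_sub_le_of_unit hu hv (by (clear * - hc0; positivity)) (by (clear * - hd0; positivity))
  have k2 : |d * S - c * T| ≤ Q := abs_sub_le_of_unit hu hv (by (clear * - hd0 hc0; positivity)) (by (clear * - hc0 hd0; positivity))
  have k3 : D ≤ |c * S - d * T| + 2 * Q :=
    cross_le hu hv (by (clear * - hc0; positivity)) (by (clear * - hd0; positivity)) (by (clear * - hd0 hc0; positivity)) (by (clear * - hc0 hd0; positivity)) (by ring)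
  have k4 : Q ≤ |d * S - c * T| + 2 * D :=
    cross_le hu hv (by (clear * - hd0 hc0; positivity)) (by (clear * - hc0 hd0; positivity)) (by (clear * - hc0; positivity)) (by (clear * - hd0; positivity)) (by ring)
  have k5 : (c * S - d * T) ^ 2 + (c ^ 2 - d ^ 2) ^ 2 = (d * S - c * T) ^ 2 := by
    linear_combination (c ^ 2 - d ^ 2) * hid1 + (d ^ 2 - c ^ 2) * hid2
  have k6 : |c * S - d * T| ^ 2 + (c ^ 2 - d ^ 2) ^ 2 = |d * S - c * T| ^ 2 := by
    rw [sq_abs, sq_abs]; exact k5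
  set A := |c * S - d * T| with hA
  set B := |d * S - c * T| with hB
  have hA0 : 0 ≤ A := abs_nonneg _
  have hB0 : 0 ≤ B := abs_nonneg _
  constructor
  · exact num_upper hA0 hB0 hD0 hQ0 n0 hN k2 k3 k6
  · exact num_lower hA0 hB0 hD0 hQ0 n0 hN k1 k4 k6

lemma chord_upper (x y : X) : ‖sig x - sig y‖ ≤ 6 * (cf x * cf y * ‖x - y‖) := by
  by_cases h : x = 0 ∧ y = 0
  · obtain ⟨rfl, rfl⟩ := h; simp
  · exact (chord_aux x y h).1

lemma chord_lower (x y : X) : cf x * cf y * ‖x - y‖ ≤ 3 / 2 * ‖sig x - sig y‖ := by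
  by_cases h : x = 0 ∧ y = 0
  · obtain ⟨rfl, rfl⟩ := h; simp
  · exact (chord_aux x y h).2

lemma chord_pole (x : X) : ‖sig x - pole X‖ = 2 * cf x := by
  have h : ‖sig x - pole X‖ ^ 2 = (2 * cf x) ^ 2 := by
    rw [norm_sq_sumR, WithLp.sub_fst, WithLp.sub_snd, sig_fst, sig_snd, pole_fst, pole_snd,
      sub_zero, norm_smul, Real.norm_of_nonneg (by positivity), mul_pow 2 (cf x), cf_sq]
    have : (1 + ‖x‖ ^ 2) ≠ 0 := by positivity
    field_simp
    ring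
  have h1 := cf_pos x
  exact (pow_left_inj₀ (norm_nonneg _) (by positivity) (by norm_num)).mp h

end Vale.Agent.P124
end

section

set_option linter.unusedSectionVars false

namespace Vale.Agent.P124

open Real

variable {X Y : Type*} [NormedAddCommGroup X] [NormedSpace ℝ X]
  [NormedAddCommGroup Y] [NormedSpace ℝ Y]

lemma sumR_ext {v w : SumR X} (h1 : v.fst = w.fst) (h2 : v.snd = w.snd) : v = w := by
  apply WithLp.ofLp_injective
  exact Prod.ext h1 h2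

/-- The radial extension of the sphere map induced by `f`. -/
noncomputable def hext (f : X → Y) (w : SumR X) : SumR Y :=
  if w.snd = ‖w‖ then ‖w‖ • pole Y
  else ‖w‖ • sig (f ((‖w‖ - w.snd)⁻¹ • w.fst))

lemma norm_smul_sig {r : ℝ} (hr : 0 ≤ r) (x : X) : ‖r • sig x‖ = r := by
  rw [norm_smul, norm_sig, mul_one, Real.norm_of_nonneg hr]

lemma norm_smul_pole {r : ℝ} (hr : 0 ≤ r) : ‖r • pole X‖ = r := by
  rw [norm_smul, norm_pole, mul_one, Real.norm_of_nonneg hr]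

lemma hext_sig (f : X → Y) {r : ℝ} (hr : 0 < r) (x : X) :
    hext f (r • sig x) = r • sig (f x) := by
  unfold hext
  have h1 : (1 + ‖x‖ ^ 2) ≠ 0 := by positivity
  have h2 : (r • sig x).snd = r * ((1 + ‖x‖ ^ 2)⁻¹ * (‖x‖ ^ 2 - 1)) := rfl
  have h3 : (r • sig x).fst = r • ((2 * (1 + ‖x‖ ^ 2)⁻¹) • x) := rfl
  have h4 : r - (r • sig x).snd = 2 * r * (1 + ‖x‖ ^ 2)⁻¹ := by
    rw [h2]; field_simp; ring
  have h5 : (r • sig x).snd ≠ r := by
    intro h
    rw [h, sub_self] at h4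
    have : 0 < 2 * r * (1 + ‖x‖ ^ 2)⁻¹ := by (clear * - hr; positivity)
    linarith only [h4, this]
  rw [norm_smul_sig hr.le, if_neg h5, h4, h3, smul_smul, smul_smul]
  have h6 : (2 * r * (1 + ‖x‖ ^ 2)⁻¹)⁻¹ * r * (2 * (1 + ‖x‖ ^ 2)⁻¹) = 1 := by
    have : r ≠ 0 := hr.ne'
    field_simp
  rw [h6, one_smul]

lemma hext_pole (f : X → Y) {r : ℝ} (hr : 0 ≤ r) : hext f (r • pole X) = r • pole Y := by
  unfold hext
  have h2 : (r • pole X).snd = r * 1 := rfl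
  rw [norm_smul_pole hr, if_pos (by rw [h2, mul_one])]

lemma sumR_cases (w : SumR X) :
    (∃ r : ℝ, 0 < r ∧ ∃ x : X, w = r • sig x) ∨ (∃ r : ℝ, 0 ≤ r ∧ w = r • pole X) := by
  have hsq := norm_sq_sumR w
  have hn := norm_nonneg w
  by_cases h : w.snd = ‖w‖
  · right
    refine ⟨‖w‖, hn, sumR_ext ?_ ?_⟩
    · have h0 : ‖w.fst‖ ^ 2 = 0 := by rw [h] at hsq; linarith only [hsq]
      have h1 : w.fst = 0 := by
        have := pow_eq_zero_iff (two_ne_zero) |>.mp h0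
        exact norm_eq_zero.mp this
      rw [h1]
      change (0 : X) = ‖w‖ • (0 : X)
      simp
    · rw [h]
      change ‖w‖ = ‖w‖ * 1
      simp
  · left
    have h0 : w.snd ≤ ‖w‖ := by
      refine le_of_abs_le ?_
      have : |w.snd| ^ 2 ≤ ‖w‖ ^ 2 := by rw [sq_abs, hsq]; nlinarith only []
      exact (pow_le_pow_iff_left₀ (abs_nonneg _) hn (by norm_num)).mp this
    have h1 : w.snd < ‖w‖ := lt_of_le_of_ne h0 h
    have h2 : 0 < ‖w‖ := by
      rcases eq_or_lt_of_le hn with h3 | h3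
      · exfalso
        apply h
        have : w = 0 := norm_eq_zero.mp h3.symm
        rw [this]; simp
      · exact h3
    set r := ‖w‖ with hr
    set t := w.snd with ht
    set z := w.fst with hz
    have h3 : r - t ≠ 0 := by linarith only [h1]
    have h4 : ‖(r - t)⁻¹ • z‖ ^ 2 = (r + t) / (r - t) := by
      rw [norm_smul, mul_pow, norm_inv, Real.norm_of_nonneg (by linarith)]
      have : ‖z‖ ^ 2 = (r - t) * (r + t) := by linarith only [hsq]
      rw [this]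
      field_simp
    have h5 : (1 + ‖(r - t)⁻¹ • z‖ ^ 2) = 2 * r / (r - t) := by
      rw [h4]; field_simp; ring
    have h6 : r ≠ 0 := h2.ne'
    refine ⟨r, h2, (r - t)⁻¹ • z, sumR_ext ?_ ?_⟩
    · change z = r • ((2 * (1 + ‖(r - t)⁻¹ • z‖ ^ 2)⁻¹) • ((r - t)⁻¹ • z))
      rw [h5, smul_smul, smul_smul]
      have : r * (2 * (2 * r / (r - t))⁻¹) * (r - t)⁻¹ = 1 := by
        field_simp
      rw [this, one_smul]
    · change t = r * ((1 + ‖(r - t)⁻¹ • z‖ ^ 2)⁻¹ * (‖(r - t)⁻¹ • z‖ ^ 2 - 1))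
      rw [h5, h4]
      field_simp
      ring

lemma norm_hext (f : X → Y) (w : SumR X) : ‖hext f w‖ = ‖w‖ := by
  unfold hext
  split_ifs
  · rw [norm_smul_pole (norm_nonneg _)]
  · rw [norm_smul_sig (norm_nonneg _)]

lemma hext_homog (f : X → Y) {t : ℝ} (ht : 0 ≤ t) (w : SumR X) :
    hext f (t • w) = t • hext f w := by
  rcases eq_or_lt_of_le ht with h | h
  · subst h
    rw [zero_smul, zero_smul]
    have := norm_hext f 0
    rw [norm_zero] at this
    exact norm_eq_zero.mp this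
  · rcases sumR_cases w with ⟨r, hr, x, rfl⟩ | ⟨r, hr, rfl⟩
    · rw [smul_smul, hext_sig f (mul_pos h hr), hext_sig f hr, smul_smul]
    · rw [smul_smul, hext_pole f (mul_nonneg ht hr), hext_pole f hr, smul_smul]

lemma hext_comp {f : X → Y} {g : Y → X} (hfg : ∀ x, g (f x) = x) (w : SumR X) :
    hext g (hext f w) = w := by
  rcases sumR_cases w with ⟨r, hr, x, rfl⟩ | ⟨r, hr, rfl⟩
  · rw [hext_sig f hr, hext_sig g hr, hfg]
  · rw [hext_pole f hr, hext_pole g hr]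

/-- how the conformal factor changes -/
lemma cf_le {c : ℝ} (hc : 0 < c) {x : X} {y : Y} (h : c * ‖x‖ ≤ ‖y‖) :
    cf y ≤ (1 + c⁻¹) * cf x := by
  have h1 : ‖x‖ ≤ c⁻¹ * ‖y‖ := by
    rw [inv_mul_eq_div, le_div_iff₀ hc, mul_comm]; exact h
  have hc' : 0 < c⁻¹ := by positivity
  have h2 : √(1 + ‖x‖ ^ 2) ≤ (1 + c⁻¹) * √(1 + ‖y‖ ^ 2) := by
    rw [Real.sqrt_le_left (by positivity), mul_pow, Real.sq_sqrt (by positivity)]
    have h3 : ‖x‖ ^ 2 ≤ (c⁻¹ * ‖y‖) ^ 2 := pow_le_pow_left₀ (norm_nonneg _) h1 2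
    rw [mul_pow] at h3
    nlinarith only [hc', h3]
  unfold cf
  have hx : 0 < √(1 + ‖x‖ ^ 2) := by positivity
  have hy : 0 < √(1 + ‖y‖ ^ 2) := by positivity
  rw [inv_eq_one_div, inv_eq_one_div (√(1 + ‖x‖ ^ 2)), mul_one_div, div_le_div_iff₀ hy hx]
  linarith only [h2]

lemma sig_lip {f : X → Y} {c C : ℝ} (hc : 0 < c) (hC : 0 ≤ C) (h0 : f 0 = 0)
    (hl : ∀ x x', c * ‖x - x'‖ ≤ ‖f x - f x'‖) (hu : ∀ x x', ‖f x - f x'‖ ≤ C * ‖x - x'‖)
    (x x' : X) :
    ‖sig (f x) - sig (f x')‖ ≤ (9 * C * (1 + c⁻¹) ^ 2) * ‖sig x - sig x'‖ := by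
  have hn : ∀ z, c * ‖z‖ ≤ ‖f z‖ := by
    intro z
    have := hl z 0
    rwa [sub_zero, h0, sub_zero] at this
  have h1 := chord_upper (f x) (f x')
  have h2 := chord_lower x x'
  have h3 := cf_le hc (hn x)
  have h4 := cf_le hc (hn x')
  have h5 := hu x x'
  have p1 := cf_pos (f x)
  have p2 := cf_pos (f x')
  have p3 := cf_pos x
  have p4 := cf_pos x'
  have hM : 0 < 1 + c⁻¹ := by positivity
  have h6 : cf (f x) * cf (f x') * ‖f x - f x'‖ ≤
      ((1 + c⁻¹) * cf x) * ((1 + c⁻¹) * cf x') * (C * ‖x - x'‖) := by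
    refine mul_le_mul (mul_le_mul h3 h4 p2.le (by positivity)) h5 (norm_nonneg _)
      (by positivity)
  calc ‖sig (f x) - sig (f x')‖ ≤ 6 * (cf (f x) * cf (f x') * ‖f x - f x'‖) := h1
    _ ≤ 6 * (((1 + c⁻¹) * cf x) * ((1 + c⁻¹) * cf x') * (C * ‖x - x'‖)) := by linarith only [h6]
    _ = (6 * C * (1 + c⁻¹) ^ 2) * (cf x * cf x' * ‖x - x'‖) := by ring
    _ ≤ (6 * C * (1 + c⁻¹) ^ 2) * (3 / 2 * ‖sig x - sig x'‖) :=
        mul_le_mul_of_nonneg_left h2 (by (clear * - hC hc; positivity))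
    _ = _ := by ring

lemma sig_lip_pole {f : X → Y} {c : ℝ} (hc : 0 < c) (h0 : f 0 = 0)
    (hl : ∀ x x', c * ‖x - x'‖ ≤ ‖f x - f x'‖) (x : X) :
    ‖sig (f x) - pole Y‖ ≤ (1 + c⁻¹) * ‖sig x - pole X‖ := by
  have hn : c * ‖x‖ ≤ ‖f x‖ := by
    have := hl x 0
    rwa [sub_zero, h0, sub_zero] at this
  have h3 := cf_le hc hn
  rw [chord_pole, chord_pole]
  linarith only [h3]

lemma hext_lip {f : X → Y} {c C : ℝ} (hc : 0 < c) (hC : 0 ≤ C) (h0 : f 0 = 0)
    (hl : ∀ x x', c * ‖x - x'‖ ≤ ‖f x - f x'‖) (hu : ∀ x x', ‖f x - f x'‖ ≤ C * ‖x - x'‖) :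
    ∃ K : ℝ, 0 < K ∧ ∀ w w' : SumR X, ‖hext f w - hext f w'‖ ≤ K * ‖w - w'‖ := by
  set L := 9 * C * (1 + c⁻¹) ^ 2 + (1 + c⁻¹) with hL
  have hc' : 0 < c⁻¹ := by positivity
  have hL0 : 0 ≤ L := by positivity
  have hb1 : 9 * C * (1 + c⁻¹) ^ 2 ≤ L := by rw [hL]; linarith only [hc']
  have hb2 : (1 + c⁻¹) ≤ L := by
    rw [hL]
    have : 0 ≤ 9 * C * (1 + c⁻¹) ^ 2 := by (clear * - hC hc; positivity)
    linarith only [this]
  have k1 : ∀ x x' : X, ‖sig (f x) - sig (f x')‖ ≤ L * ‖sig x - sig x'‖ := fun x x' =>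
    (sig_lip hc hC h0 hl hu x x').trans (mul_le_mul_of_nonneg_right hb1 (norm_nonneg _))
  have k2 : ∀ x : X, ‖sig (f x) - pole Y‖ ≤ L * ‖sig x - pole X‖ := fun x =>
    (sig_lip_pole hc h0 hl x).trans (mul_le_mul_of_nonneg_right hb2 (norm_nonneg _))
  refine ⟨1 + 2 * L, by (clear * - hC hc; positivity), ?_⟩
  intro w w'
  rcases sumR_cases w with ⟨r, hr, x, rfl⟩ | ⟨r, hr, rfl⟩ <;>
    rcases sumR_cases w' with ⟨s, hs, x', rfl⟩ | ⟨s, hs, rfl⟩
  · rw [hext_sig f hr, hext_sig f hs]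
    exact homog_le (norm_sig _) (norm_sig _) (norm_sig _) (norm_sig _) hL0 (k1 x x') hr.le hs.le
  · rw [hext_sig f hr, hext_pole f hs]
    exact homog_le (norm_sig _) norm_pole (norm_sig _) norm_pole hL0 (k2 x) hr.le hs
  · rw [hext_pole f hr, hext_sig f hs, norm_sub_rev, norm_sub_rev (r • pole X)]
    exact homog_le (norm_sig _) norm_pole (norm_sig _) norm_pole hL0 (k2 x') hs.le hr
  · rw [hext_pole f hr, hext_pole f hs]
    refine homog_le norm_pole norm_pole norm_pole norm_pole hL0 ?_ hr hs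
    simp

theorem exists_homog {f : X → Y} (hf : IsLipIso f) :
    ∃ F : SumR X → SumR Y, IsLipIso F ∧ (∀ t : ℝ, 0 ≤ t → ∀ w, F (t • w) = t • F w) ∧
      ∀ w, ‖F w‖ = ‖w‖ := by
  obtain ⟨hbij, c, C, hc, hcC⟩ := hf
  set f₀ : X → Y := fun x => f x - f 0 with hf₀
  have hbij₀ : Function.Bijective f₀ :=
    (Equiv.subRight (f 0)).bijective.comp hbij
  set e := Equiv.ofBijective f₀ hbij₀ with he
  have he0 : f₀ 0 = 0 := by simp [hf₀]
  have hl : ∀ x x', c * ‖x - x'‖ ≤ ‖f₀ x - f₀ x'‖ := by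
    intro x x'
    simp only [hf₀, sub_sub_sub_cancel_right]
    exact (hcC x x').1
  have hC' : ∀ x x', ‖f₀ x - f₀ x'‖ ≤ max C 0 * ‖x - x'‖ := by
    intro x x'
    simp only [hf₀, sub_sub_sub_cancel_right]
    exact (hcC x x').2.trans (mul_le_mul_of_nonneg_right (le_max_left _ _) (norm_nonneg _))
  set g : Y → X := fun y => e.symm y with hg
  have hgf : ∀ x, g (f₀ x) = x := fun x => e.symm_apply_apply x
  have hfg : ∀ y, f₀ (g y) = y := fun y => e.apply_symm_apply y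
  have hg0 : g 0 = 0 := by
    have := hgf 0
    rwa [he0] at this
  have hgu : ∀ y y', ‖g y - g y'‖ ≤ c⁻¹ * ‖y - y'‖ := by
    intro y y'
    have := hl (g y) (g y')
    rw [hfg, hfg] at this
    rw [inv_mul_eq_div, le_div_iff₀ hc, mul_comm]; exact this
  set D := max C 0 + 1 with hD
  have hD0 : 0 < D := by (clear * -; positivity)
  have hgl : ∀ y y', D⁻¹ * ‖y - y'‖ ≤ ‖g y - g y'‖ := by
    intro y y'
    have h1 := hC' (g y) (g y')
    rw [hfg, hfg] at h1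
    rw [inv_mul_eq_div, div_le_iff₀ hD0]
    have h2 := norm_nonneg (g y - g y')
    rw [hD]
    linarith only [h1, h2]
  obtain ⟨K, hK, hKL⟩ := hext_lip hc (le_max_right C 0) he0 hl hC'
  obtain ⟨K', hK', hKL'⟩ :=
    hext_lip (f := g) (inv_pos.mpr hD0) (inv_pos.mpr hc).le hg0 hgl hgu
  refine ⟨hext f₀, ⟨?_, K'⁻¹, K, inv_pos.mpr hK', ?_⟩, ?_, ?_⟩
  · refine Function.bijective_iff_has_inverse.mpr ⟨hext g, ?_, ?_⟩
    · intro w; exact hext_comp hgf w
    · intro w; exact hext_comp hfg w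
  · intro w w'
    refine ⟨?_, hKL w w'⟩
    have := hKL' (hext f₀ w) (hext f₀ w')
    rw [hext_comp hgf, hext_comp hgf] at this
    rw [inv_mul_eq_div, div_le_iff₀ hK', mul_comm]
    exact this
  · intro t ht w; exact hext_homog f₀ ht w
  · intro w; exact norm_hext f₀ w

/-- cancelling a line -/
theorem cancel_line (T : (X × ℝ) ≃L[ℝ] (Y × ℝ)) : Nonempty (X ≃L[ℝ] Y) := by
  have hv : ∃ v : Y × ℝ, v.2 ≠ 0 ∧ (T.symm v).2 = 1 := by
    have key : ∃ v : Y × ℝ, v.2 ≠ 0 ∧ (T.symm v).2 ≠ 0 := by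
      by_cases h1 : (T.symm ((0 : Y), (1 : ℝ))).2 = 0
      · by_cases h2 : (T ((0 : X), (1 : ℝ))).2 = 0
        · refine ⟨(0, 1) + T (0, 1), ?_, ?_⟩
          · rw [Prod.snd_add, h2]; simp
          · rw [map_add, Prod.snd_add, h1, T.symm_apply_apply]; simp
        · exact ⟨T (0, 1), h2, by rw [T.symm_apply_apply]; simp⟩
      · exact ⟨(0, 1), by simp, h1⟩
    obtain ⟨v, h1, h2⟩ := key
    refine ⟨((T.symm v).2)⁻¹ • v, ?_, ?_⟩
    · rw [Prod.smul_snd, smul_eq_mul]; exact mul_ne_zero (inv_ne_zero h2) h1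
    · rw [map_smul, Prod.smul_snd, smul_eq_mul, inv_mul_cancel₀ h2]
  obtain ⟨v, hv1, hv2⟩ := hv
  set φ : (Y × ℝ) →L[ℝ] ℝ :=
    (ContinuousLinearMap.snd ℝ X ℝ).comp (T.symm : (Y × ℝ) →L[ℝ] (X × ℝ)) with hφ
  set ψ : (Y × ℝ) →L[ℝ] ℝ := (v.2)⁻¹ • (ContinuousLinearMap.snd ℝ Y ℝ) with hψ
  have hφv : φ v = 1 := hv2
  have hψv : ψ v = 1 := by
    change (v.2)⁻¹ • v.2 = 1
    rw [smul_eq_mul, inv_mul_cancel₀ hv1]
  set S : (Y × ℝ) →L[ℝ] (Y × ℝ) :=
    ContinuousLinearMap.id ℝ _ + (φ - ψ).smulRight v with hS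
  set S' : (Y × ℝ) →L[ℝ] (Y × ℝ) :=
    ContinuousLinearMap.id ℝ _ - (φ - ψ).smulRight v with hS'
  have hSa : ∀ z, S z = z + (φ z - ψ z) • v := fun z => rfl
  have hSa' : ∀ z, S' z = z - (φ z - ψ z) • v := fun z => rfl
  have hSS' : ∀ z, S' (S z) = z := by
    intro z
    rw [hSa', hSa, map_add, map_add, map_smul, map_smul, hφv, hψv, add_sub_add_right_eq_sub,
      add_sub_cancel_right]
  have hS'S : ∀ z, S (S' z) = z := by
    intro z
    rw [hSa, hSa', map_sub, map_sub, map_smul, map_smul, hφv, hψv, sub_sub_sub_cancel_right,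
      sub_add_cancel]
  have hψS : ∀ z, ψ (S z) = φ z := by
    intro z
    rw [hSa, map_add, map_smul, hψv, smul_eq_mul, mul_one]; ring
  have hφS' : ∀ z, φ (S' z) = ψ z := by
    intro z
    rw [hSa', map_sub, map_smul, hφv, smul_eq_mul, mul_one]; ring
  have hAx : ∀ x : X, (S (T (x, 0))).2 = 0 := by
    intro x
    have h1 : ψ (S (T (x, 0))) = 0 := by
      rw [hψS]
      change (T.symm (T (x, 0))).2 = 0
      rw [T.symm_apply_apply]
    have h2 : (v.2)⁻¹ * (S (T (x, 0))).2 = 0 := h1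
    exact (mul_eq_zero.mp h2).resolve_left (inv_ne_zero hv1)
  have hBy : ∀ y : Y, (T.symm (S' (y, 0))).2 = 0 := by
    intro y
    have h1 : φ (S' (y, 0)) = 0 := by
      rw [hφS']
      change (v.2)⁻¹ • (0 : ℝ) = 0
      simp
    exact h1
  refine ⟨ContinuousLinearEquiv.equivOfInverse
    ((ContinuousLinearMap.fst ℝ Y ℝ).comp (S.comp ((T : (X × ℝ) →L[ℝ] (Y × ℝ)).comp
      (ContinuousLinearMap.inl ℝ X ℝ))))
    ((ContinuousLinearMap.fst ℝ X ℝ).comp ((T.symm : (Y × ℝ) →L[ℝ] (X × ℝ)).comp (S'.comp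
      (ContinuousLinearMap.inl ℝ Y ℝ)))) ?_ ?_⟩
  · intro x
    change (T.symm (S' ((S (T (x, 0))).1, 0))).1 = x
    have h1 : ((S (T (x, 0))).1, (0 : ℝ)) = S (T (x, 0)) := Prod.ext rfl (hAx x).symm
    rw [h1, hSS', T.symm_apply_apply]
  · intro y
    change (S (T ((T.symm (S' (y, 0))).1, 0))).1 = y
    have h1 : ((T.symm (S' (y, 0))).1, (0 : ℝ)) = T.symm (S' (y, 0)) :=
      Prod.ext rfl (hBy y).symm
    rw [h1, T.apply_symm_apply, hS'S]

theorem cancel_sumR (T : SumR X ≃L[ℝ] SumR Y) : Nonempty (X ≃L[ℝ] Y) :=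
  cancel_line (((WithLp.prodContinuousLinearEquiv 2 ℝ X ℝ).symm.trans T).trans
    (WithLp.prodContinuousLinearEquiv 2 ℝ Y ℝ))

instance sumR_sep [TopologicalSpace.SeparableSpace X] :
    TopologicalSpace.SeparableSpace (SumR X) :=
  (WithLp.prodContinuousLinearEquiv 2 ℝ X ℝ).symm.surjective.denseRange.separableSpace
    (WithLp.prodContinuousLinearEquiv 2 ℝ X ℝ).symm.continuous

end Vale.Agent.P124
end

section

set_option linter.unusedSectionVars false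
set_option linter.unnecessarySimpa false

namespace Vale.Agent.P124

open Real Metric

variable {X Y : Type*} [NormedAddCommGroup X] [NormedSpace ℝ X]
  [NormedAddCommGroup Y] [NormedSpace ℝ Y]

lemma LipEquiv.exists_isLipIso (h : LipEquiv X Y) : ∃ f : X → Y, IsLipIso f := by
  obtain ⟨f, hf, c, C, hc, h⟩ := h
  refine ⟨f, hf, c, C, hc, fun x x' => ?_⟩
  rw [← dist_eq_norm, ← dist_eq_norm]
  exact h x x'

lemma IsLipIso.lipEquiv {f : X → Y} (hf : IsLipIso f) : LipEquiv X Y := by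
  obtain ⟨hf, c, C, hc, h⟩ := hf
  refine ⟨f, hf, c, C, hc, fun x x' => ?_⟩
  rw [dist_eq_norm, dist_eq_norm]
  exact h x x'

lemma RadialEquiv.sphere (h : RadialEquiv X Y) : LipEquiv (sphere (0 : X) 1) (sphere (0 : Y) 1) := by
  obtain ⟨f, ⟨hbij, c, C, hc, hcC⟩, -, hnorm⟩ := h
  refine ⟨fun x => ⟨f x, by simp only [mem_sphere_iff_norm, sub_zero, hnorm, norm_eq_of_mem_sphere]⟩, ⟨?_, ?_⟩, c, C, hc, ?_⟩
  · intro x y hxy
    exact Subtype.ext (hbij.1 (congrArg Subtype.val hxy))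
  · intro y
    obtain ⟨x, hx⟩ := hbij.2 y
    have hy : ‖(y : Y)‖ = 1 := by simpa using y.2
    refine ⟨⟨x, ?_⟩, Subtype.ext hx⟩
    rw [mem_sphere_zero_iff_norm, ← hnorm, hx, hy]
  · intro x x'
    rw [Subtype.dist_eq, Subtype.dist_eq, dist_eq_norm, dist_eq_norm]
    exact hcC x x'

lemma exists_sphere_rep [Nontrivial X] (x : X) :
    ∃ r : ℝ, 0 ≤ r ∧ ∃ u : sphere (0 : X) 1, x = r • (u : X) := by
  by_cases hx : x = 0
  · obtain ⟨u, hu⟩ := exists_norm_eq X zero_le_one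
    exact ⟨0, le_rfl, ⟨u, by simpa only [mem_sphere_iff_norm, sub_zero] using hu⟩, by simp [hx]⟩
  · have hx' : ‖x‖ ≠ 0 := norm_ne_zero_iff.mpr hx
    refine ⟨‖x‖, norm_nonneg _, ⟨‖x‖⁻¹ • x, ?_⟩, ?_⟩
    · rw [mem_sphere_zero_iff_norm, norm_smul, norm_inv, norm_norm, inv_mul_cancel₀ hx']
    · rw [smul_smul, mul_inv_cancel₀ hx', one_smul]

open Classical in
/-- the radial extension of a map of spheres -/
noncomputable def rext (g : sphere (0 : X) 1 → sphere (0 : Y) 1) (x : X) : Y :=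
  if h : x = 0 then 0
  else ‖x‖ • (g ⟨‖x‖⁻¹ • x, by
    rw [mem_sphere_zero_iff_norm, norm_smul, norm_inv, norm_norm,
      inv_mul_cancel₀ (norm_ne_zero_iff.mpr h)]⟩ : Y)

lemma rext_smul (g : sphere (0 : X) 1 → sphere (0 : Y) 1) {r : ℝ} (hr : 0 ≤ r)
    (u : sphere (0 : X) 1) : rext g (r • (u : X)) = r • (g u : Y) := by
  have hu : ‖(u : X)‖ = 1 := by simpa using u.2
  rcases eq_or_lt_of_le hr with h | h
  · subst h; simp only [rext, zero_smul, ↓reduceDIte]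
  · have hn : ‖r • (u : X)‖ = r := by rw [norm_smul, hu, mul_one, Real.norm_of_nonneg hr]
    have h0 : r • (u : X) ≠ 0 := by
      rw [← norm_ne_zero_iff, hn]; exact h.ne'
    unfold rext
    rw [dif_neg h0]
    have h1 : (⟨‖r • (u : X)‖⁻¹ • (r • (u : X)), by
        rw [mem_sphere_zero_iff_norm, norm_smul, norm_inv, norm_norm,
          inv_mul_cancel₀ (norm_ne_zero_iff.mpr h0)]⟩ : sphere (0 : X) 1) = u := by
      apply Subtype.ext
      change ‖r • (u : X)‖⁻¹ • (r • (u : X)) = (u : X)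
      rw [hn, smul_smul, inv_mul_cancel₀ h.ne', one_smul]
    rw [h1, hn]

lemma radialEquiv_of_sphere (h : LipEquiv (sphere (0 : X) 1) (sphere (0 : Y) 1)) :
    RadialEquiv X Y := by
  obtain ⟨g, hbij, c, C, hc, hcC⟩ := h
  rcases subsingleton_or_nontrivial X with hX | hX
  · have hY : Subsingleton Y := by
      rcases subsingleton_or_nontrivial Y with hY | hY
      · exact hY
      · exfalso
        obtain ⟨v, hv⟩ := exists_norm_eq Y zero_le_one
        obtain ⟨u, -⟩ := hbij.2 ⟨v, by simpa only [mem_sphere_iff_norm, sub_zero] using hv⟩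
        have hu : ‖(u : X)‖ = 1 := by simpa using u.2
        rw [Subsingleton.elim (u : X) 0, norm_zero] at hu
        exact zero_ne_one hu
    refine ⟨fun _ => 0, ⟨⟨fun x y _ => Subsingleton.elim _ _, fun y => ⟨0, Subsingleton.elim _ _⟩⟩,
      1, 1, one_pos, fun x x' => ?_⟩, fun t _ x => Subsingleton.elim _ _, fun x => ?_⟩
    · rw [Subsingleton.elim x x']; simp
    · rw [Subsingleton.elim x 0]; simp
  · have hY : Nontrivial Y := by
      obtain ⟨u, hu⟩ := exists_norm_eq X zero_le_one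
      obtain ⟨v, hv⟩ := g ⟨u, by simpa only [mem_sphere_iff_norm, sub_zero] using hu⟩
      have h1 : ‖v‖ = 1 := by simpa only [mem_sphere_iff_norm, sub_zero] using hv
      exact ⟨⟨v, 0, fun h => by rw [h, norm_zero] at h1; exact zero_ne_one h1⟩⟩
    have hn1 : ∀ u : sphere (0 : X) 1, ‖(u : X)‖ = 1 := fun u => by simpa using u.2
    have hn2 : ∀ u : sphere (0 : Y) 1, ‖(u : Y)‖ = 1 := fun u => by simpa using u.2
    have hC : ∀ u v : sphere (0 : X) 1, ‖(g u : Y) - g v‖ ≤ max C 0 * ‖(u : X) - v‖ := by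
      intro u v
      have := (hcC u v).2
      rw [Subtype.dist_eq, Subtype.dist_eq, dist_eq_norm, dist_eq_norm] at this
      exact this.trans (mul_le_mul_of_nonneg_right (le_max_left _ _) (norm_nonneg _))
    have hc' : ∀ u v : sphere (0 : X) 1, ‖(u : X) - v‖ ≤ c⁻¹ * ‖(g u : Y) - g v‖ := by
      intro u v
      have := (hcC u v).1
      rw [Subtype.dist_eq, Subtype.dist_eq, dist_eq_norm, dist_eq_norm] at this
      rw [inv_mul_eq_div, le_div_iff₀ hc, mul_comm]; exact this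
    have hcinv : 0 < c⁻¹ := inv_pos.mpr hc
    have hup : ∀ x x' : X, ‖rext g x - rext g x'‖ ≤ (1 + 2 * max C 0) * ‖x - x'‖ := by
      intro x x'
      obtain ⟨r, hr, u, rfl⟩ := exists_sphere_rep x
      obtain ⟨s, hs, v, rfl⟩ := exists_sphere_rep x'
      rw [rext_smul g hr, rext_smul g hs]
      exact homog_le (hn1 _) (hn1 _) (hn2 _) (hn2 _) (le_max_right _ _) (hC u v) hr hs
    have hlow : ∀ x x' : X, ‖x - x'‖ ≤ (1 + 2 * c⁻¹) * ‖rext g x - rext g x'‖ := by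
      intro x x'
      obtain ⟨r, hr, u, rfl⟩ := exists_sphere_rep x
      obtain ⟨s, hs, v, rfl⟩ := exists_sphere_rep x'
      rw [rext_smul g hr, rext_smul g hs]
      exact homog_le (hn2 _) (hn2 _) (hn1 _) (hn1 _) hcinv.le (hc' u v) hr hs
    have hpos : 0 < 1 + 2 * c⁻¹ := by positivity
    refine ⟨rext g, ⟨⟨?_, ?_⟩, (1 + 2 * c⁻¹)⁻¹, 1 + 2 * max C 0, inv_pos.mpr hpos, ?_⟩, ?_, ?_⟩
    · intro x x' hxx
      have := hlow x x'
      rw [hxx, sub_self, norm_zero, mul_zero] at this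
      exact sub_eq_zero.mp (norm_eq_zero.mp (le_antisymm this (norm_nonneg _)))
    · intro y
      obtain ⟨r, hr, v, rfl⟩ := exists_sphere_rep y
      obtain ⟨u, rfl⟩ := hbij.2 v
      exact ⟨r • (u : X), rext_smul g hr u⟩
    · intro x x'
      refine ⟨?_, hup x x'⟩
      rw [inv_mul_eq_div, div_le_iff₀ hpos, mul_comm]
      exact hlow x x'
    · intro t ht x
      obtain ⟨r, hr, u, rfl⟩ := exists_sphere_rep x
      rw [smul_smul, rext_smul g (mul_nonneg ht hr), rext_smul g hr, smul_smul]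
    · intro x
      obtain ⟨r, hr, u, rfl⟩ := exists_sphere_rep x
      rw [rext_smul g hr, norm_smul, norm_smul, hn1, hn2]

/-- Lipschitz isomorphic spaces have Lipschitz isomorphic suspension spheres. -/
theorem lipEquiv_sphere_sumR (h : LipEquiv X Y) :
    LipEquiv (sphere (0 : SumR X) 1) (sphere (0 : SumR Y) 1) := by
  obtain ⟨f, hf⟩ := h.exists_isLipIso
  obtain ⟨F, h1, h2, h3⟩ := exists_homog hf
  exact RadialEquiv.sphere ⟨F, h1, h2, h3⟩

end Vale.Agent.P124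
end

section

set_option linter.unusedSectionVars false
set_option linter.unnecessarySimpa false

namespace Vale.Agent.P124

open Real Metric

variable {X Y : Type*} [NormedAddCommGroup X] [NormedSpace ℝ X]
  [NormedAddCommGroup Y] [NormedSpace ℝ Y]

/-- inverse stereographic projection -/
noncomputable def prj (w : SumR X) : X := (‖w‖ - w.snd)⁻¹ • w.fst

lemma prj_sig {r : ℝ} (hr : 0 < r) (x : X) : prj (r • sig x) = x := by
  unfold prj
  have h1 : (1 + ‖x‖ ^ 2) ≠ 0 := by positivity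
  have h2 : (r • sig x).snd = r * ((1 + ‖x‖ ^ 2)⁻¹ * (‖x‖ ^ 2 - 1)) := rfl
  have h3 : (r • sig x).fst = r • ((2 * (1 + ‖x‖ ^ 2)⁻¹) • x) := rfl
  have h4 : r - (r • sig x).snd = 2 * r * (1 + ‖x‖ ^ 2)⁻¹ := by
    rw [h2]; field_simp; ring
  rw [norm_smul_sig hr.le, h4, h3, smul_smul, smul_smul]
  have h6 : (2 * r * (1 + ‖x‖ ^ 2)⁻¹)⁻¹ * r * (2 * (1 + ‖x‖ ^ 2)⁻¹) = 1 := by
    have : r ≠ 0 := hr.ne'
    field_simp
  rw [h6, one_smul]

lemma sig_ne_smul_pole (x : X) {r : ℝ} (hr : 0 ≤ r) : sig x ≠ r • pole X := by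
  intro h
  have h1 := congrArg norm h
  rw [norm_sig, norm_smul_pole hr] at h1
  have h2 := chord_pole x
  rw [h, ← h1, one_smul, sub_self, norm_zero] at h2
  have := cf_pos x
  linarith only [h2, this]

lemma descend_key {K : ℝ} (hK0 : 0 < K) {z z' : X} {w w' : Y}
    (h1 : ‖sig w - sig w'‖ ≤ K * ‖sig z - sig z'‖)
    (h2 : cf z ≤ K * cf w) (h3 : cf z' ≤ K * cf w') : ‖w - w'‖ ≤ 9 * K ^ 3 * ‖z - z'‖ := by
  have p1 := cf_pos w
  have p2 := cf_pos w'
  have p3 := cf_pos z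
  have p4 := cf_pos z'
  have h4 := chord_lower w w'
  have h5 := chord_upper z z'
  have h6 : cf w * cf w' * ‖w - w'‖ ≤ 9 * K * (cf z * cf z' * ‖z - z'‖) := by
    have : K * ‖sig z - sig z'‖ ≤ K * (6 * (cf z * cf z' * ‖z - z'‖)) :=
      mul_le_mul_of_nonneg_left h5 hK0.le
    linarith only [h1, h4, this]
  have h7 : cf z * cf z' ≤ (K * cf w) * (K * cf w') :=
    mul_le_mul h2 h3 p4.le (by positivity)
  have h8 : cf z * cf z' * ‖z - z'‖ ≤ (K * cf w) * (K * cf w') * ‖z - z'‖ :=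
    mul_le_mul_of_nonneg_right h7 (norm_nonneg _)
  have h9 : 9 * K * (cf z * cf z' * ‖z - z'‖) ≤
      9 * K * ((K * cf w) * (K * cf w') * ‖z - z'‖) :=
    mul_le_mul_of_nonneg_left h8 (by positivity)
  have h10 : cf w * cf w' * ‖w - w'‖ ≤ cf w * cf w' * (9 * K ^ 3 * ‖z - z'‖) := by
    calc cf w * cf w' * ‖w - w'‖ ≤ 9 * K * ((K * cf w) * (K * cf w') * ‖z - z'‖) := h6.trans h9
      _ = _ := by ring
  exact le_of_mul_le_mul_left h10 (mul_pos p1 p2)

lemma low_num {c C a b d : ℝ} (hc : 0 < c) (h5 : a ≤ 2 * b * C) (h2 : c * b ≤ d) (hC : 0 < C) :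
    a ≤ (2 * C / c) * d := by
  rw [div_mul_eq_mul_div, le_div_iff₀ hc]
  nlinarith

set_option maxHeartbeats 1000000 in
/-- A positively homogeneous Lipschitz isomorphism fixing the pole comes from a
Lipschitz isomorphism of the base spaces. -/
theorem descend {F : SumR X → SumR Y} (hF : IsLipIso F)
    (hhom : ∀ t : ℝ, 0 ≤ t → ∀ w, F (t • w) = t • F w) (hpole : F (pole X) = pole Y) :
    ∃ f : X → Y, IsLipIso f := by
  obtain ⟨hbij, c, C, hc, hcC⟩ := hF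
  have hF0 : F 0 = 0 := by
    have := hhom 0 le_rfl 0
    rwa [zero_smul, zero_smul] at this
  have hC0 : 0 < C := by
    have := hcC (pole X) 0
    rw [hF0, sub_zero, hpole, sub_zero, norm_pole, norm_pole] at this
    linarith only [this]
  have hnl : ∀ x : X, c ≤ ‖F (sig x)‖ := by
    intro x
    have := (hcC (sig x) 0).1
    rwa [hF0, sub_zero, sub_zero, norm_sig, mul_one] at this
  have hnu : ∀ x : X, ‖F (sig x)‖ ≤ C := by
    intro x
    have := (hcC (sig x) 0).2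
    rwa [hF0, sub_zero, sub_zero, norm_sig, mul_one] at this
  have hpos : ∀ x : X, 0 < ‖F (sig x)‖ := fun x => hc.trans_le (hnl x)
  have hrep : ∀ x : X, F (sig x) = ‖F (sig x)‖ • sig (prj (F (sig x))) := by
    intro x
    rcases sumR_cases (F (sig x)) with ⟨r, hr, y, hy⟩ | ⟨r, hr, hy⟩
    · rw [hy, prj_sig hr, norm_smul_sig hr.le]
    · exfalso
      have h1 : F (sig x) = F (r • pole X) := by rw [hy, hhom r hr, hpole]
      exact sig_ne_smul_pole x hr (hbij.1 h1)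
  set f : X → Y := fun x => prj (F (sig x)) with hf
  have hrep' : ∀ x : X, F (sig x) = ‖F (sig x)‖ • sig (f x) := hrep
  have hinv : ∀ x : X, F (‖F (sig x)‖⁻¹ • sig x) = sig (f x) := by
    intro x
    rw [hhom _ (inv_nonneg.mpr (norm_nonneg _))]
    conv_lhs => rw [hrep' x]
    rw [smul_smul, norm_smul_sig (norm_nonneg _), inv_mul_cancel₀ (hpos x).ne', one_smul]
  -- upper bounds on the sphere
  have hU : ∀ x x' : X, ‖sig (f x) - sig (f x')‖ ≤ (2 * C / c) * ‖sig x - sig x'‖ := by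
    intro x x'
    have h1 := left_mul_le (norm_sig (f x)) (norm_sig (f x')) (norm_nonneg (F (sig x)))
      (norm_nonneg (F (sig x')))
    rw [← hrep' x, ← hrep' x'] at h1
    have h2 := (hcC (sig x) (sig x')).2
    have h3 : c * ‖sig (f x) - sig (f x')‖ ≤ 2 * (C * ‖sig x - sig x'‖) :=
      (mul_le_mul_of_nonneg_right (hnl x) (norm_nonneg _)).trans (h1.trans (by linarith only [h2]))
    rw [div_mul_eq_mul_div, le_div_iff₀ hc]
    linarith only [h3]
  have hUp : ∀ x : X, ‖sig (f x) - pole Y‖ ≤ (2 * C / c) * ‖sig x - pole X‖ := by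
    intro x
    have h1 := left_mul_le (norm_sig (f x)) (norm_pole (X := Y)) (norm_nonneg (F (sig x)))
      (zero_le_one)
    rw [← hrep' x, one_smul, ← hpole] at h1
    have h2 := (hcC (sig x) (pole X)).2
    have h3 : c * ‖sig (f x) - pole Y‖ ≤ 2 * (C * ‖sig x - pole X‖) := by
      rw [← hpole]
      exact (mul_le_mul_of_nonneg_right (hnl x) (norm_nonneg _)).trans (h1.trans (by linarith only [h2]))
    rw [div_mul_eq_mul_div, le_div_iff₀ hc]
    linarith only [h3]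
  -- lower bounds on the sphere
  have hL : ∀ x x' : X, ‖sig x - sig x'‖ ≤ (2 * C / c) * ‖sig (f x) - sig (f x')‖ := by
    intro x x'
    have h1 := left_mul_le (norm_sig x) (norm_sig x') (inv_nonneg.mpr (norm_nonneg (F (sig x))))
      (inv_nonneg.mpr (norm_nonneg (F (sig x'))))
    have h2 := (hcC (‖F (sig x)‖⁻¹ • sig x) (‖F (sig x')‖⁻¹ • sig x')).1
    rw [hinv x, hinv x'] at h2
    have h3 : C⁻¹ ≤ ‖F (sig x)‖⁻¹ := inv_anti₀ (hpos x) (hnu x)
    have h4 : C⁻¹ * ‖sig x - sig x'‖ ≤ ‖F (sig x)‖⁻¹ * ‖sig x - sig x'‖ :=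
      mul_le_mul_of_nonneg_right h3 (norm_nonneg _)
    have h5 : C⁻¹ * ‖sig x - sig x'‖ ≤
        2 * ‖‖F (sig x)‖⁻¹ • sig x - ‖F (sig x')‖⁻¹ • sig x'‖ := h4.trans h1
    rw [inv_mul_eq_div, div_le_iff₀ hC0] at h5
    exact low_num hc h5 h2 hC0
  have hLp : ∀ x : X, ‖sig x - pole X‖ ≤ (2 * C / c) * ‖sig (f x) - pole Y‖ := by
    intro x
    have h1 := left_mul_le (norm_sig x) (norm_pole (X := X))
      (inv_nonneg.mpr (norm_nonneg (F (sig x)))) (zero_le_one)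
    have h2 := (hcC (‖F (sig x)‖⁻¹ • sig x) (pole X)).1
    rw [hinv x, hpole] at h2
    rw [one_smul] at h1
    have h3 : C⁻¹ ≤ ‖F (sig x)‖⁻¹ := inv_anti₀ (hpos x) (hnu x)
    have h4 : C⁻¹ * ‖sig x - pole X‖ ≤ ‖F (sig x)‖⁻¹ * ‖sig x - pole X‖ :=
      mul_le_mul_of_nonneg_right h3 (norm_nonneg _)
    have h5 : C⁻¹ * ‖sig x - pole X‖ ≤
        2 * ‖‖F (sig x)‖⁻¹ • sig x - pole X‖ := h4.trans h1
    rw [inv_mul_eq_div, div_le_iff₀ hC0] at h5
    exact low_num hc h5 h2 hC0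
  set K := 2 * C / c with hK
  have hK0 : 0 < K := by positivity
  have cf1 : ∀ x : X, cf (f x) ≤ K * cf x := by
    intro x
    have := hUp x
    rw [chord_pole, chord_pole] at this
    linarith only [this]
  have cf2 : ∀ x : X, cf x ≤ K * cf (f x) := by
    intro x
    have := hLp x
    rw [chord_pole, chord_pole] at this
    linarith only [this]
  have hup : ∀ x x' : X, ‖f x - f x'‖ ≤ 9 * K ^ 3 * ‖x - x'‖ := fun x x' =>
    descend_key hK0 (hU x x') (cf2 x) (cf2 x')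
  have hlow : ∀ x x' : X, ‖x - x'‖ ≤ 9 * K ^ 3 * ‖f x - f x'‖ := fun x x' =>
    descend_key hK0 (hL x x') (cf1 x) (cf1 x')
  have hM : 0 < 9 * K ^ 3 := by positivity
  refine ⟨f, ⟨?_, ?_⟩, (9 * K ^ 3)⁻¹, 9 * K ^ 3, inv_pos.mpr hM, fun x x' => ⟨?_, hup x x'⟩⟩
  · intro x x' hxx
    have := hlow x x'
    rw [hxx, sub_self, norm_zero, mul_zero] at this
    exact sub_eq_zero.mp (norm_eq_zero.mp (le_antisymm this (norm_nonneg _)))
  · intro y
    obtain ⟨w, hw⟩ := hbij.2 (sig y)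
    rcases sumR_cases w with ⟨r, hr, x, rfl⟩ | ⟨r, hr, rfl⟩
    · refine ⟨x, ?_⟩
      rw [hhom r hr.le, hrep' x, smul_smul] at hw
      have h1 := congrArg prj hw
      rw [prj_sig (mul_pos hr (hpos x))] at h1
      rw [h1]
      have := prj_sig one_pos y
      rwa [one_smul] at this
    · exfalso
      rw [hhom r hr, hpole] at hw
      exact sig_ne_smul_pole y hr hw.symm
  · rw [inv_mul_eq_div, div_le_iff₀ hM, mul_comm]
    exact hlow x x'

theorem lipEquiv_of_sphere_sumR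
    (h : LipEquiv (sphere (0 : SumR X) 1) (sphere (0 : SumR Y) 1)) : LipEquiv X Y := by
  obtain ⟨F, ⟨hbij, c, C, hc, hcC⟩, hhom, hnorm⟩ := radialEquiv_of_sphere h
  have hq : F (pole X) ≠ 0 := by
    rw [← norm_ne_zero_iff, hnorm, norm_pole]; exact one_ne_zero
  have hp : pole Y ≠ 0 := by
    rw [← norm_ne_zero_iff, norm_pole]; exact one_ne_zero
  obtain ⟨T, hT⟩ := SeparatingDual.exists_continuousLinearEquiv_apply_eq (R := ℝ) hq hp
  obtain ⟨K, hK, hKT⟩ := (T : SumR Y →L[ℝ] SumR Y).isBoundedLinearMap.bound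
  obtain ⟨K', hK', hKT'⟩ := (T.symm : SumR Y →L[ℝ] SumR Y).isBoundedLinearMap.bound
  have h2 : ∀ z : SumR Y, ‖T z‖ ≤ K * ‖z‖ := hKT
  have h3 : ∀ z : SumR Y, K'⁻¹ * ‖z‖ ≤ ‖T z‖ := by
    intro z
    have : ‖T.symm (T z)‖ ≤ K' * ‖T z‖ := hKT' (T z)
    rw [T.symm_apply_apply] at this
    rw [inv_mul_eq_div, div_le_iff₀ hK', mul_comm]; exact this
  have hlip : IsLipIso (fun w => T (F w)) := by
    refine ⟨T.bijective.comp hbij, K'⁻¹ * c, K * C, by (clear * - hK' hc; positivity), fun x x' => ⟨?_, ?_⟩⟩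
    · change _ ≤ ‖T (F x) - T (F x')‖
      rw [← map_sub]
      refine le_trans ?_ (h3 _)
      rw [mul_assoc]
      exact mul_le_mul_of_nonneg_left (hcC x x').1 (by (clear * - hK'; positivity))
    · change ‖T (F x) - T (F x')‖ ≤ _
      rw [← map_sub]
      refine (h2 _).trans ?_
      rw [mul_assoc]
      exact mul_le_mul_of_nonneg_left (hcC x x').2 hK.le
  obtain ⟨f, hf⟩ := descend hlip (fun t ht w => by
    change T (F (t • w)) = t • T (F w)
    rw [hhom t ht, map_smul]) hT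
  exact hf.lipEquiv

/-- Two normed spaces are Lipschitz isomorphic exactly when the unit spheres of their
Euclidean sums with the line are. -/
theorem lipEquiv_iff_sphere_sumR :
    LipEquiv X Y ↔ LipEquiv (sphere (0 : SumR X) 1) (sphere (0 : SumR Y) 1) :=
  ⟨lipEquiv_sphere_sumR, lipEquiv_of_sphere_sumR⟩

end Vale.Agent.P124
end
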